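import Vale.Agent.P305.MM.TE3
import Vale.Agent.P305.MM.TW1

/-! Probability part of the assembly: two chains of nonsingular matrices. -/

set_option autoImplicit false

namespace Vale.Agent.P305.MM

open Finset

namespace H970

/-- A list of pairs `(u, v)`, `u < v`, without repetition has at most `N ^ 2` elements. -/
theorem length_le {N : ℕ} (es : List (Fin N × Fin N)) (hnd : es.Nodup) : es.length ≤ N ^ 2 := by
  classical
  have h := hnd.length_le_card
  simpa [Fintype.card_prod, Fintype.card_fin, sq] using h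

/-- For a finite type, the good elements and the bad elements add up. -/
theorem card_add {α : Type} [Finite α] (P : α → Prop) :
    Nat.card {a // P a} + Nat.card {a // ¬ P a} = Nat.card α := by
  classical
  have := Fintype.ofFinite α
  simp only [Nat.card_eq_fintype_card]
  exact Fintype.card_subtype_compl P ▸ by
    have := Fintype.card_subtype_le P
    omega

/-- Union bound. -/
theorem card_or_le {α : Type} [Finite α] (P Q : α → Prop) :
    Nat.card {a // P a ∨ Q a} ≤ Nat.card {a // P a} + Nat.card {a // Q a} := by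
  classical
  have := Fintype.ofFinite α
  simp only [Nat.card_eq_fintype_card, Fintype.card_subtype]
  rw [Finset.filter_or]
  exact Finset.card_union_le _ _

theorem good_words {N b p : ℕ} [Fact p.Prime] (hp : 2 ^ b < p) (hb : 12 * N ^ 2 ≤ 2 ^ b)
    (S₀ S₁ : Finset (Fin N × Fin N)) (h₀ : IsPM S₀) (h₁ : IsPM S₁)
    (es₀ es₁ : List (Fin N × Fin N)) (hnd₀ : es₀.Nodup) (hnd₁ : es₁.Nodup)
    (hes₀ : ∀ e ∈ es₀, e.1 < e.2 ∧ e ∉ S₀) (hes₁ : ∀ e ∈ es₁, e.1 < e.2 ∧ e ∉ S₁) :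
    2 * Nat.card (Fin N → Fin N → Fin (2 ^ b)) ≤
      3 * Nat.card {w : Fin N → Fin N → Fin (2 ^ b) // ChainOK S₀ es₀ (wt p w) ∧
        ChainOK S₁ es₁ (wt p w)} := by
  classical
  have c0 := chain_count hp S₀ h₀ es₀ hnd₀ hes₀
  have c1 := chain_count hp S₁ h₁ es₁ hnd₁ hes₁
  have l0 := length_le es₀ hnd₀
  have l1 := length_le es₁ hnd₁
  set T := Nat.card (Fin N → Fin N → Fin (2 ^ b)) with hT
  have hsum := card_add (fun w : Fin N → Fin N → Fin (2 ^ b) => ChainOK S₀ es₀ (wt p w) ∧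
        ChainOK S₁ es₁ (wt p w))
  have hor : Nat.card {w : Fin N → Fin N → Fin (2 ^ b) // ¬ (ChainOK S₀ es₀ (wt p w) ∧
        ChainOK S₁ es₁ (wt p w))} ≤
      Nat.card {w : Fin N → Fin N → Fin (2 ^ b) // ¬ ChainOK S₀ es₀ (wt p w)} +
      Nat.card {w : Fin N → Fin N → Fin (2 ^ b) // ¬ ChainOK S₁ es₁ (wt p w)} := by
    refine le_trans (le_of_eq ?_) (card_or_le _ _)
    apply Nat.card_congr
    exact Equiv.subtypeEquivRight fun w => not_and_or
  set A := Nat.card {w : Fin N → Fin N → Fin (2 ^ b) // ¬ ChainOK S₀ es₀ (wt p w)}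
  set A' := Nat.card {w : Fin N → Fin N → Fin (2 ^ b) // ¬ ChainOK S₁ es₁ (wt p w)}
  set C := Nat.card {w : Fin N → Fin N → Fin (2 ^ b) // ¬ (ChainOK S₀ es₀ (wt p w) ∧
        ChainOK S₁ es₁ (wt p w))}
  set D := Nat.card {w : Fin N → Fin N → Fin (2 ^ b) // ChainOK S₀ es₀ (wt p w) ∧
        ChainOK S₁ es₁ (wt p w)}
  have hpos : 0 < 2 ^ b := Nat.two_pow_pos b
  have k0 : 12 * A ≤ T := by
    have : 2 ^ b * (12 * A) ≤ 2 ^ b * T := by
      calc 2 ^ b * (12 * A) = 12 * (2 ^ b * A) := by ring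
        _ ≤ 12 * (es₀.length * T) := Nat.mul_le_mul_left _ c0
        _ ≤ 12 * (N ^ 2 * T) := Nat.mul_le_mul_left _ (Nat.mul_le_mul_right _ l0)
        _ = (12 * N ^ 2) * T := by ring
        _ ≤ 2 ^ b * T := Nat.mul_le_mul_right _ hb
    exact Nat.le_of_mul_le_mul_left this hpos
  have k1 : 12 * A' ≤ T := by
    have : 2 ^ b * (12 * A') ≤ 2 ^ b * T := by
      calc 2 ^ b * (12 * A') = 12 * (2 ^ b * A') := by ring
        _ ≤ 12 * (es₁.length * T) := Nat.mul_le_mul_left _ c1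
        _ ≤ 12 * (N ^ 2 * T) := Nat.mul_le_mul_left _ (Nat.mul_le_mul_right _ l1)
        _ = (12 * N ^ 2) * T := by ring
        _ ≤ 2 ^ b * T := Nat.mul_le_mul_right _ hb
    exact Nat.le_of_mul_le_mul_left this hpos
  omega

/-- For at least two thirds of the sequences of random bits both chains are nonsingular. -/
theorem good_bits {N b p B : ℕ} [Fact p.Prime] (hp : 2 ^ b < p) (hb : 12 * N ^ 2 ≤ 2 ^ b)
    (hB : N * N * b ≤ B) (S₀ S₁ : Finset (Fin N × Fin N)) (h₀ : IsPM S₀) (h₁ : IsPM S₁)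
    (es₀ es₁ : List (Fin N × Fin N)) (hnd₀ : es₀.Nodup) (hnd₁ : es₁.Nodup)
    (hes₀ : ∀ e ∈ es₀, e.1 < e.2 ∧ e ∉ S₀) (hes₁ : ∀ e ∈ es₁, e.1 < e.2 ∧ e ∉ S₁) :
    2 * 2 ^ B ≤ 3 * Nat.card {ω : Fin B → Bool //
      ChainOK S₀ es₀ (wt p (words (extend ω) N b)) ∧
      ChainOK S₁ es₁ (wt p (words (extend ω) N b))} := by
  have hw := word_count b N B hB (fun w => ChainOK S₀ es₀ (wt p w) ∧ ChainOK S₁ es₁ (wt p w))
  have hg := good_words hp hb S₀ S₁ h₀ h₁ es₀ es₁ hnd₀ hnd₁ hes₀ hes₁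
  have hT : 0 < Nat.card (Fin N → Fin N → Fin (2 ^ b)) := by
    have : Nonempty (Fin (2 ^ b)) := ⟨⟨0, Nat.two_pow_pos b⟩⟩
    exact Nat.card_pos
  refine Nat.le_of_mul_le_mul_right ?_ hT
  calc 2 * 2 ^ B * Nat.card (Fin N → Fin N → Fin (2 ^ b))
      = (2 * Nat.card (Fin N → Fin N → Fin (2 ^ b))) * 2 ^ B := by ring
    _ ≤ (3 * Nat.card {w : Fin N → Fin N → Fin (2 ^ b) // ChainOK S₀ es₀ (wt p w) ∧
        ChainOK S₁ es₁ (wt p w)}) * 2 ^ B := Nat.mul_le_mul_right _ hg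
    _ = 3 * (Nat.card {w : Fin N → Fin N → Fin (2 ^ b) // ChainOK S₀ es₀ (wt p w) ∧
        ChainOK S₁ es₁ (wt p w)} * 2 ^ B) := by ring
    _ = 3 * (Nat.card {ω : Fin B → Bool //
      ChainOK S₀ es₀ (wt p (words (extend ω) N b)) ∧
      ChainOK S₁ es₁ (wt p (words (extend ω) N b))} *
        Nat.card (Fin N → Fin N → Fin (2 ^ b))) := by rw [hw]
    _ = _ := by ring

end H970

end Vale.Agent.P305.MM
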